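import Mathlib

namespace Vale.Agent.P047

open Finset Complex

/-- nodes: the solutions of `ζ ^ (2 d) = -1` -/
noncomputable def nd (d k : ℕ) : ℂ :=
  Complex.exp (Real.pi * I / (2 * d : ℕ)) * Complex.exp (2 * Real.pi * I / (2 * d : ℕ)) ^ k

lemma nd_pow (d k : ℕ) (hd : 1 ≤ d) : nd d k ^ (2 * d) = -1 := by
  have hprim := Complex.isPrimitiveRoot_exp (2 * d) (by omega)
  have h1 : Complex.exp (Real.pi * I / (2 * d : ℕ)) ^ (2 * d) = -1 := by
    rw [← Complex.exp_nat_mul, mul_div_cancel₀, Complex.exp_pi_mul_I]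
    exact_mod_cast (by omega : 2 * d ≠ 0)
  unfold nd
  rw [mul_pow, h1, ← pow_mul, mul_comm k, pow_mul, hprim.pow_eq_one, one_pow, mul_one]

lemma nd_norm (d k : ℕ) (hd : 1 ≤ d) : ‖nd d k‖ = 1 := by
  have h := nd_pow d k hd
  have h2 : ‖nd d k‖ ^ (2 * d) = 1 := by
    rw [← norm_pow, h]; simp
  exact (pow_eq_one_iff_of_nonneg (norm_nonneg _) (by omega)).mp h2

lemma nd_ne_one (d k : ℕ) (hd : 1 ≤ d) : nd d k ≠ 1 := by
  intro h
  have h2 := nd_pow d k hd
  rw [h, one_pow] at h2
  norm_num at h2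

lemma nd_ne_zero (d k : ℕ) (hd : 1 ≤ d) : nd d k ≠ 0 := by
  intro h
  have := nd_norm d k hd
  rw [h] at this; simp at this

lemma sum_nd_pow (d m : ℕ) (hd : 1 ≤ d) (hm : 0 < m) (hm2 : m < 2 * d) :
    ∑ k ∈ range (2 * d), nd d k ^ m = 0 := by
  have hprim := Complex.isPrimitiveRoot_exp (2 * d) (by omega)
  set ω := Complex.exp (2 * Real.pi * I / (2 * d : ℕ)) with hω
  have h1 : ∀ k, nd d k ^ m = Complex.exp (Real.pi * I / (2 * d : ℕ)) ^ m * (ω ^ m) ^ k := by
    intro k
    unfold nd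
    rw [← hω]
    ring
  rw [Finset.sum_congr rfl (fun k _ => h1 k), ← Finset.mul_sum]
  have hne : ω ^ m ≠ 1 := by
    rw [Ne, hprim.pow_eq_one_iff_dvd]
    intro hdvd
    exact absurd (Nat.le_of_dvd hm hdvd) (by omega)
  rw [geom_sum_eq hne, ← pow_mul, mul_comm m, pow_mul, hprim.pow_eq_one]
  simp

/-- auxiliary sums -/
noncomputable def U (d m : ℕ) : ℂ := ∑ k ∈ range (2 * d), nd d k ^ m / (1 - nd d k)
noncomputable def S (d j : ℕ) : ℂ := ∑ k ∈ range (2 * d), nd d k ^ (j + 1) / (1 - nd d k) ^ 2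

lemma one_sub_ne (d k : ℕ) (hd : 1 ≤ d) : 1 - nd d k ≠ 0 :=
  sub_ne_zero.mpr (Ne.symm (nd_ne_one d k hd))

lemma U_succ (d m : ℕ) (hd : 1 ≤ d) :
    U d (m + 1) = U d m - ∑ k ∈ range (2 * d), nd d k ^ m := by
  unfold U
  rw [← Finset.sum_sub_distrib]
  apply Finset.sum_congr rfl
  intro k _
  have h := one_sub_ne d k hd
  field_simp
  ring

lemma S_succ (d j : ℕ) (hd : 1 ≤ d) : S d (j + 1) = S d j - U d (j + 1) := by
  unfold S U
  rw [← Finset.sum_sub_distrib]
  apply Finset.sum_congr rfl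
  intro k _
  have h := one_sub_ne d k hd
  field_simp
  ring

lemma U_eq (d m : ℕ) (hd : 1 ≤ d) (hm : 1 ≤ m) (hm2 : m ≤ 2 * d) : U d m = -d := by
  have hconst : ∀ m, 1 ≤ m → m ≤ 2 * d → U d m = U d 1 := by
    intro m hm
    induction m, hm using Nat.le_induction with
    | base => intro _; rfl
    | succ m hm ih =>
      intro h
      rw [U_succ d m hd, sum_nd_pow d m hd (by omega) (by omega), sub_zero]
      exact ih (by omega)
  have h0 : U d 1 = U d 0 - 2 * d := by
    have := U_succ d 0 hd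
    simpa using this
  have hN : U d (2 * d) = - U d 0 := by
    unfold U
    rw [← Finset.sum_neg_distrib]
    apply Finset.sum_congr rfl
    intro k _
    rw [nd_pow d k hd, pow_zero]
    ring
  have h2 := hconst (2 * d) (by omega) le_rfl
  rw [hN, h0] at h2
  have h3 : U d 0 = d := by
    have : (2:ℂ) * U d 0 = 2 * d := by linear_combination -h2
    exact mul_left_cancel₀ two_ne_zero this
  rw [hconst m hm hm2, h0, h3]
  ring

lemma S_eq (d j : ℕ) (hd : 1 ≤ d) (hj : j ≤ 2 * d) : S d j = d * (j - d) := by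
  have hlin : ∀ j, j ≤ 2 * d → S d j = S d 0 + d * j := by
    intro j
    induction j with
    | zero => intro _; simp
    | succ j ih =>
      intro h
      rw [S_succ d j hd, U_eq d (j + 1) hd (by omega) h, ih (by omega)]
      push_cast
      ring
  have hN : S d (2 * d) = - S d 0 := by
    unfold S
    rw [← Finset.sum_neg_distrib]
    apply Finset.sum_congr rfl
    intro k _
    rw [pow_succ, nd_pow d k hd]
    ring
  have h2 := hlin (2 * d) le_rfl
  rw [hN] at h2
  have h3 : S d 0 = - (d * d) := by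
    have : (2:ℂ) * S d 0 = 2 * (-(d * d)) := by
      push_cast at h2
      linear_combination -h2
    exact mul_left_cancel₀ two_ne_zero this
  rw [hlin j hj, h3]
  ring

lemma norm_weight (d k : ℕ) (hd : 1 ≤ d) :
    ((‖nd d k / (1 - nd d k) ^ 2‖ : ℝ) : ℂ) = - (nd d k / (1 - nd d k) ^ 2) := by
  have hn := nd_norm d k hd
  have h1 := one_sub_ne d k hd
  have h0 := nd_ne_zero d k hd
  have hconj : (starRingEnd ℂ) (nd d k) * nd d k = 1 := by
    rw [mul_comm, Complex.mul_conj, Complex.normSq_eq_norm_sq, hn]; simp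
  rw [norm_div, norm_pow, hn]
  push_cast
  have h2 : ((‖1 - nd d k‖ : ℝ) : ℂ) ^ 2 = (1 - nd d k) * (starRingEnd ℂ) (1 - nd d k) := by
    rw [Complex.mul_conj, Complex.normSq_eq_norm_sq]; push_cast; ring
  rw [h2, map_sub, map_one]
  have h3 : (1 - (starRingEnd ℂ) (nd d k)) * nd d k = -(1 - nd d k) := by
    linear_combination -hconj
  have h4 : 1 - (starRingEnd ℂ) (nd d k) ≠ 0 := by
    intro h
    rw [h, zero_mul] at h3
    exact h1 (by linear_combination h3)
  rw [div_eq_iff (mul_ne_zero h1 h4)]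
  field_simp
  linear_combination h3

lemma sum_norm_weight (d : ℕ) (hd : 1 ≤ d) :
    ∑ k ∈ range (2 * d), ‖nd d k / (1 - nd d k) ^ 2‖ = (d:ℝ) ^ 2 := by
  have h : ((∑ k ∈ range (2 * d), ‖nd d k / (1 - nd d k) ^ 2‖ : ℝ) : ℂ) = ((d:ℝ) ^ 2 : ℝ) := by
    push_cast
    rw [Finset.sum_congr rfl (fun k _ => norm_weight d k hd), Finset.sum_neg_distrib]
    have h2 := S_eq d 0 hd (by omega)
    unfold S at h2
    simp only [zero_add, pow_one] at h2
    rw [h2]
    push_cast
    ring
  exact_mod_cast h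

/-- the derivation operator on coefficients -/
noncomputable def T (d : ℕ) (P : Polynomial ℂ) : Polynomial ℂ :=
  Polynomial.C I * (Polynomial.X * Polynomial.derivative P - Polynomial.C (d:ℂ) * P)

lemma T_natDegree (d : ℕ) (P : Polynomial ℂ) (hP : P.natDegree ≤ 2 * d) :
    (T d P).natDegree ≤ 2 * d := by
  unfold T
  refine (Polynomial.natDegree_C_mul_le _ _).trans ?_
  refine (Polynomial.natDegree_sub_le _ _).trans (max_le ?_ ?_)
  · rcases Nat.eq_zero_or_pos P.natDegree with h | h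
    · have : Polynomial.derivative P = 0 := by
        exact Polynomial.derivative_of_natDegree_zero h
      rw [this]; simp
    · refine (Polynomial.natDegree_mul_le).trans ?_
      have := Polynomial.natDegree_derivative_lt (p := P) (by omega)
      have hX : (Polynomial.X : Polynomial ℂ).natDegree ≤ 1 := Polynomial.natDegree_X_le
      omega
  · exact (Polynomial.natDegree_C_mul_le _ _).trans hP

/-- M. Riesz interpolation formula. -/
lemma riesz (d : ℕ) (hd : 1 ≤ d) (P : Polynomial ℂ) (hP : P.natDegree ≤ 2 * d) (z : ℂ) :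
    z * (Polynomial.derivative P).eval z - d * P.eval z
      = (1 / d) * ∑ k ∈ range (2 * d), nd d k / (1 - nd d k) ^ 2 * P.eval (z * nd d k) := by
  have hdc : (d:ℂ) ≠ 0 := by exact_mod_cast (by omega : d ≠ 0)
  have hL : z * (Polynomial.derivative P).eval z - d * P.eval z
      = ∑ j ∈ range (2 * d + 1), P.coeff j * ((j - d) * z ^ j) := by
    rw [Polynomial.derivative_eval, Polynomial.sum_over_range' P _ (2 * d + 1) (by omega),
      Polynomial.eval_eq_sum_range' (show P.natDegree < 2 * d + 1 by omega)]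
    · rw [Finset.mul_sum, Finset.mul_sum, ← Finset.sum_sub_distrib]
      apply Finset.sum_congr rfl
      intro j _
      rcases Nat.eq_zero_or_pos j with h | h
      · subst h; simp; ring
      · obtain ⟨i, rfl⟩ : ∃ i, j = i + 1 := ⟨j - 1, by omega⟩
        simp only [Nat.add_sub_cancel]
        push_cast
        ring
    · intro; simp
  rw [hL]
  have hR : ∀ k, P.eval (z * nd d k) = ∑ j ∈ range (2 * d + 1), P.coeff j * (z * nd d k) ^ j := by
    intro k
    rw [Polynomial.eval_eq_sum_range' (show P.natDegree < 2 * d + 1 by omega)]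
  have hR2 : ∑ k ∈ range (2 * d), nd d k / (1 - nd d k) ^ 2 * P.eval (z * nd d k)
      = ∑ k ∈ range (2 * d), ∑ j ∈ range (2 * d + 1),
          nd d k / (1 - nd d k) ^ 2 * (P.coeff j * (z * nd d k) ^ j) := by
    apply Finset.sum_congr rfl
    intro k _
    rw [hR k, Finset.mul_sum]
  rw [hR2, Finset.sum_comm, Finset.mul_sum]
  apply Finset.sum_congr rfl
  intro j hj
  have hj' : j ≤ 2 * d := by
    have := Finset.mem_range.mp hj; omega
  have hS := S_eq d j hd hj'
  have : ∑ k ∈ range (2 * d), nd d k / (1 - nd d k) ^ 2 * (P.coeff j * (z * nd d k) ^ j)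
      = P.coeff j * z ^ j * S d j := by
    unfold S
    rw [Finset.mul_sum]
    apply Finset.sum_congr rfl
    intro k _
    rw [mul_pow, pow_succ]
    ring
  rw [this, hS]
  field_simp

/-- Bernstein's inequality. -/
lemma bernstein (d : ℕ) (hd : 1 ≤ d) (P : Polynomial ℂ) (hP : P.natDegree ≤ 2 * d) (B : ℝ)
    (hB : ∀ z : ℂ, ‖z‖ = 1 → ‖P.eval z‖ ≤ B) (z : ℂ) (hz : ‖z‖ = 1) :
    ‖(T d P).eval z‖ ≤ d * B := by
  have hdr : (0:ℝ) < d := by exact_mod_cast hd
  have h1 : (T d P).eval z = I * (z * (Polynomial.derivative P).eval z - d * P.eval z) := by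
    simp [T]
  rw [h1, riesz d hd P hP z, norm_mul, Complex.norm_I, one_mul, norm_mul]
  have h2 : ‖∑ k ∈ range (2 * d), nd d k / (1 - nd d k) ^ 2 * P.eval (z * nd d k)‖
      ≤ (d:ℝ) ^ 2 * B := by
    rw [← sum_norm_weight d hd, Finset.sum_mul]
    refine (norm_sum_le _ _).trans (Finset.sum_le_sum fun k _ => ?_)
    rw [norm_mul]
    apply mul_le_mul_of_nonneg_left _ (norm_nonneg _)
    apply hB
    rw [norm_mul, hz, nd_norm d k hd, one_mul]
  have h3 : ‖(1 / (d:ℂ))‖ = 1 / d := by simp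
  rw [h3]
  calc 1 / (d:ℝ) * ‖∑ k ∈ range (2 * d), nd d k / (1 - nd d k) ^ 2 * P.eval (z * nd d k)‖
      ≤ 1 / (d:ℝ) * ((d:ℝ) ^ 2 * B) := by
        apply mul_le_mul_of_nonneg_left h2; positivity
    _ = d * B := by field_simp

end Vale.Agent.P047
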