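import Vale.Agent.P047.Defs

namespace Vale.Agent.P047

open Finset

variable {n : ℕ}

lemma sg_sq (b : Bool) : sg b * sg b = 1 := by
  cases b <;> simp [sg]

/-- Fourier inversion. -/
lemma inversion (f : (Fin n → Bool) → ℝ) (x : Fin n → Bool) :
    f x = ∑ S : Finset (Fin n), fourierCoeff f S * ∏ i ∈ S, sg (x i) := by
  have key : ∀ y : Fin n → Bool,
      ∑ S : Finset (Fin n), (∏ i ∈ S, sg (y i)) * ∏ i ∈ S, sg (x i)
        = if y = x then (2:ℝ) ^ n else 0 := by
    intro y
    have h1 : ∑ S : Finset (Fin n), (∏ i ∈ S, sg (y i)) * ∏ i ∈ S, sg (x i)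
        = ∏ i : Fin n, (1 + sg (y i) * sg (x i)) := by
      rw [Finset.prod_one_add]
      simp [Finset.powerset_univ, Finset.prod_mul_distrib]
    rw [h1]
    split_ifs with h
    · subst h
      rw [Finset.prod_congr rfl (fun i _ => by rw [sg_sq])]
      norm_num
    · have : ∃ i, y i ≠ x i := by
        by_contra hc
        push Not at hc
        exact h (funext hc)
      obtain ⟨i, hi⟩ := this
      apply Finset.prod_eq_zero (Finset.mem_univ i)
      cases hy : y i <;> cases hx : x i <;> simp_all [sg]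
  have h2 : ∑ S : Finset (Fin n), fourierCoeff f S * ∏ i ∈ S, sg (x i)
      = (∑ y : Fin n → Bool, f y * ∑ S : Finset (Fin n),
          (∏ i ∈ S, sg (y i)) * ∏ i ∈ S, sg (x i)) / 2 ^ n := by
    unfold fourierCoeff
    rw [Finset.sum_congr rfl (fun y _ => Finset.mul_sum _ _ _), Finset.sum_comm,
      Finset.sum_div]
    apply Finset.sum_congr rfl
    intro S _
    rw [div_mul_eq_mul_div, Finset.sum_mul]
    congr 1
    apply Finset.sum_congr rfl
    intro y _
    ring
  rw [h2]
  simp [key]

/-- biased weight -/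
noncomputable def wt (t : ℝ) (x : Fin n → Bool) : ℝ := ∏ i, (1 + t * sg (x i)) / 2

/-- biased expectation -/
noncomputable def Ex (t : ℝ) (h : (Fin n → Bool) → ℝ) : ℝ := ∑ x, wt t x * h x

/-- biased characters -/
noncomputable def chi (t : ℝ) (S : Finset (Fin n)) (x : Fin n → Bool) : ℝ :=
  ∏ i ∈ S, (sg (x i) - t)

lemma orth (t : ℝ) (S T : Finset (Fin n)) :
    Ex t (fun x => chi t S x * chi t T x) = if S = T then (1 - t ^ 2) ^ S.card else 0 := by
  unfold Ex wt chi
  have h1 : ∀ x : Fin n → Bool,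
      (∏ i, (1 + t * sg (x i)) / 2) * ((∏ i ∈ S, (sg (x i) - t)) * ∏ i ∈ T, (sg (x i) - t))
        = ∏ i, ((1 + t * sg (x i)) / 2 * ((if i ∈ S then (sg (x i) - t) else 1) *
            (if i ∈ T then (sg (x i) - t) else 1))) := by
    intro x
    rw [Finset.prod_mul_distrib, Finset.prod_mul_distrib, Finset.prod_ite_mem,
      Finset.prod_ite_mem]
    simp
  rw [Finset.sum_congr rfl (fun x _ => h1 x)]
  have h2 := (Finset.prod_univ_sum (fun _ : Fin n => (Finset.univ : Finset Bool))
    (fun i b => ((1 + t * sg b) / 2 * ((if i ∈ S then (sg b - t) else 1) *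
            (if i ∈ T then (sg b - t) else 1)))))
  rw [Fintype.piFinset_univ] at h2
  rw [← h2]
  have h3 : ∀ i : Fin n, ∑ b : Bool, ((1 + t * sg b) / 2 * ((if i ∈ S then (sg b - t) else 1) *
            (if i ∈ T then (sg b - t) else 1)))
      = if i ∈ S then (if i ∈ T then (1 - t^2) else 0) else (if i ∈ T then 0 else 1) := by
    intro i
    rw [Fintype.sum_bool]
    by_cases hS : i ∈ S <;> by_cases hT : i ∈ T <;> simp [hS, hT, sg] <;> ring
  rw [Finset.prod_congr rfl (fun i _ => h3 i)]
  split_ifs with h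
  · subst h
    have : ∀ i : Fin n, (if i ∈ S then (if i ∈ S then (1 - t^2) else 0) else (if i ∈ S then 0 else 1))
        = if i ∈ S then (1 - t^2) else (1:ℝ) := by
      intro i; split_ifs <;> rfl
    rw [Finset.prod_congr rfl (fun i _ => this i), Finset.prod_ite_mem]
    simp
  · have : ∃ i, ¬ (i ∈ S ↔ i ∈ T) := by
      by_contra hc
      push Not at hc
      exact h (Finset.ext hc)
    obtain ⟨i, hi⟩ := this
    apply Finset.prod_eq_zero (Finset.mem_univ i)
    by_cases hS : i ∈ S <;> by_cases hT : i ∈ T <;> simp_all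

/-- biased coefficients -/
noncomputable def bc (f : (Fin n → Bool) → ℝ) (t : ℝ) (S : Finset (Fin n)) : ℝ :=
  ∑ T : Finset (Fin n), if S ⊆ T then fourierCoeff f T * t ^ (T.card - S.card) else 0

lemma biased_expansion (f : (Fin n → Bool) → ℝ) (t : ℝ) (x : Fin n → Bool) :
    f x = ∑ S : Finset (Fin n), bc f t S * chi t S x := by
  rw [inversion f x]
  have h1 : ∀ T : Finset (Fin n), ∏ i ∈ T, sg (x i)
      = ∑ S : Finset (Fin n), if S ⊆ T then chi t S x * t ^ (T.card - S.card) else 0 := by
    intro T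
    have : ∏ i ∈ T, sg (x i) = ∏ i ∈ T, ((sg (x i) - t) + t) := by
      apply Finset.prod_congr rfl; intro i _; ring
    rw [this, Finset.prod_add, ← Finset.sum_filter]
    have hf : (Finset.univ.filter (fun S : Finset (Fin n) => S ⊆ T)) = T.powerset := by
      ext S; simp
    rw [hf]
    apply Finset.sum_congr rfl
    intro S hS
    rw [Finset.mem_powerset] at hS
    rw [Finset.prod_const, Finset.card_sdiff_of_subset hS]
    rfl
  rw [Finset.sum_congr rfl (fun T _ => by rw [h1 T])]
  simp_rw [bc, Finset.mul_sum, Finset.sum_mul]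
  rw [Finset.sum_comm]
  apply Finset.sum_congr rfl
  intro S _
  apply Finset.sum_congr rfl
  intro T _
  split_ifs <;> ring

lemma Ex_sum_mul (t : ℝ) {ι : Type*} (s : Finset ι) (c : ι → ℝ) (g : ι → (Fin n → Bool) → ℝ) :
    Ex t (fun x => (∑ a ∈ s, c a * g a x) ^ 2)
      = ∑ a ∈ s, ∑ b ∈ s, c a * c b * Ex t (fun x => g a x * g b x) := by
  unfold Ex
  simp_rw [Finset.mul_sum]
  rw [Finset.sum_congr rfl (fun a _ => Finset.sum_comm), Finset.sum_comm]
  apply Finset.sum_congr rfl
  intro x _
  rw [sq, Finset.sum_mul_sum, Finset.mul_sum]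
  apply Finset.sum_congr rfl
  intro a _
  rw [Finset.mul_sum]
  apply Finset.sum_congr rfl
  intro b _
  ring

end Vale.Agent.P047
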