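import Mathlib

namespace Vale.Agent.P047

open Finset

/-- The value in `{-1,1}` of a bit: `true` is `+1`, `false` is `-1`. -/
def sg (b : Bool) : ℝ := if b then 1 else -1

/-- The Fourier coefficient `E[f(X) ∏_{i ∈ S} X_i]`, `X` uniform on the cube. -/
noncomputable def fourierCoeff {n : ℕ} (f : (Fin n → Bool) → ℝ) (S : Finset (Fin n)) : ℝ :=
  (∑ x : Fin n → Bool, f x * ∏ i ∈ S, sg (x i)) / 2 ^ n

/-- `f` takes values in `{-1,1}`. -/
def IsBoolean {n : ℕ} (f : (Fin n → Bool) → ℝ) : Prop := ∀ x, f x = 1 ∨ f x = -1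

/-- `deg f`, the largest size of a set with nonzero Fourier coefficient. -/
noncomputable def degree {n : ℕ} (f : (Fin n → Bool) → ℝ) : ℕ :=
  open Classical in
  (Finset.univ.filter (fun S : Finset (Fin n) => fourierCoeff f S ≠ 0)).sup Finset.card

/-- All values of `∑ i, fourierCoeff f {i}` over Boolean `f` with `deg f ≤ d`, on any number
`n ≥ 1` of variables. -/
def levelOneSums (d : ℕ) : Set ℝ :=
  {L : ℝ | ∃ (n : ℕ) (f : (Fin n → Bool) → ℝ), 1 ≤ n ∧ IsBoolean f ∧ degree f ≤ d ∧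
    L = ∑ i, fourierCoeff f {i}}

/-- `M(d)`, the supremum of these values. -/
noncomputable def M (d : ℕ) : ℝ := sSup (levelOneSums d)

end Vale.Agent.P047
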