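import Vale.Agent.P047.Biased

namespace Vale.Agent.P047

open Finset

variable {n : ℕ}

lemma Ex_one (t : ℝ) : Ex t (fun _ : Fin n → Bool => (1:ℝ)) = 1 := by
  have h := orth (n := n) t ∅ ∅
  simpa [chi] using h

lemma parseval (f : (Fin n → Bool) → ℝ) (t : ℝ) :
    Ex t (fun x => f x ^ 2) = ∑ S : Finset (Fin n), bc f t S ^ 2 * (1 - t ^ 2) ^ S.card := by
  have h : (fun x => f x ^ 2) = fun x => (∑ S : Finset (Fin n), bc f t S * chi t S x) ^ 2 := by
    funext x; rw [← biased_expansion]
  rw [h, Ex_sum_mul]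
  apply Finset.sum_congr rfl
  intro S _
  rw [Finset.sum_eq_single S]
  · rw [orth, if_pos rfl]; ring
  · intro T _ hT
    rw [orth, if_neg (Ne.symm hT), mul_zero]
  · simp

lemma wt_nonneg {t : ℝ} (h1 : -1 ≤ t) (h2 : t ≤ 1) (x : Fin n → Bool) : 0 ≤ wt t x := by
  unfold wt
  apply Finset.prod_nonneg
  intro i _
  cases x i <;> simp [sg] <;> linarith

/-- discrete derivative -/
noncomputable def Dd (f : (Fin n → Bool) → ℝ) (i : Fin n) (x : Fin n → Bool) : ℝ :=
  (f (Function.update x i true) - f (Function.update x i false)) / 2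

lemma chi_update_mem (t : ℝ) (S : Finset (Fin n)) (i : Fin n) (hi : i ∈ S) (x : Fin n → Bool)
    (b : Bool) : chi t S (Function.update x i b) = (sg b - t) * chi t (S.erase i) x := by
  unfold chi
  rw [← Finset.mul_prod_erase S _ hi]
  simp only [Function.update_self]
  congr 1
  apply Finset.prod_congr rfl
  intro j hj
  rw [Function.update_of_ne (Finset.ne_of_mem_erase hj)]

lemma chi_update_notMem (t : ℝ) (S : Finset (Fin n)) (i : Fin n) (hi : i ∉ S) (x : Fin n → Bool)
    (b : Bool) : chi t S (Function.update x i b) = chi t S x := by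
  unfold chi
  apply Finset.prod_congr rfl
  intro j hj
  rw [Function.update_of_ne]
  rintro rfl
  exact hi hj

lemma Dd_expansion (f : (Fin n → Bool) → ℝ) (t : ℝ) (i : Fin n) (x : Fin n → Bool) :
    Dd f i x = ∑ S ∈ Finset.univ.filter (fun S : Finset (Fin n) => i ∈ S),
      bc f t S * chi t (S.erase i) x := by
  unfold Dd
  rw [biased_expansion f t, biased_expansion f t, ← Finset.sum_sub_distrib, Finset.sum_div,
    Finset.sum_filter]
  apply Finset.sum_congr rfl
  intro S _
  split_ifs with h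
  · rw [chi_update_mem t S i h, chi_update_mem t S i h]
    simp [sg]; ring
  · rw [chi_update_notMem t S i h, chi_update_notMem t S i h]
    simp

lemma Ex_Dd_sq (f : (Fin n → Bool) → ℝ) (t : ℝ) (i : Fin n) :
    Ex t (fun x => Dd f i x ^ 2) = ∑ S ∈ Finset.univ.filter (fun S : Finset (Fin n) => i ∈ S),
      bc f t S ^ 2 * (1 - t ^ 2) ^ (S.card - 1) := by
  have h : (fun x => Dd f i x ^ 2) = fun x =>
      (∑ S ∈ Finset.univ.filter (fun S : Finset (Fin n) => i ∈ S),
        bc f t S * chi t (S.erase i) x) ^ 2 := by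
    funext x; rw [← Dd_expansion]
  rw [h, Ex_sum_mul]
  apply Finset.sum_congr rfl
  intro S hS
  have hiS : i ∈ S := (Finset.mem_filter.mp hS).2
  rw [Finset.sum_eq_single S]
  · rw [orth, if_pos rfl, Finset.card_erase_of_mem hiS]; ring
  · intro T hT hne
    have hiT : i ∈ T := (Finset.mem_filter.mp hT).2
    rw [orth, if_neg, mul_zero]
    intro hc
    apply hne
    rw [← Finset.insert_erase hiS, ← Finset.insert_erase hiT, hc]
  · intro hc
    exact absurd hS hc

lemma Ex_Dd (f : (Fin n → Bool) → ℝ) (t : ℝ) (i : Fin n) :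
    Ex t (Dd f i) = bc f t {i} := by
  have h : Ex t (Dd f i) = ∑ S ∈ Finset.univ.filter (fun S : Finset (Fin n) => i ∈ S),
      bc f t S * Ex t (fun x => chi t (S.erase i) x * chi t ∅ x) := by
    unfold Ex
    simp_rw [Finset.mul_sum]
    rw [Finset.sum_comm]
    apply Finset.sum_congr rfl
    intro x _
    rw [Dd_expansion f t i x, Finset.mul_sum]
    apply Finset.sum_congr rfl
    intro S _
    simp [chi]; ring
  rw [h, Finset.sum_eq_single {i}]
  · rw [orth]; simp
  · intro S hS hne
    have hiS : i ∈ S := (Finset.mem_filter.mp hS).2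
    rw [orth, if_neg, mul_zero]
    intro hc
    apply hne
    rw [← Finset.insert_erase hiS, hc]
    rfl
  · intro hc
    exact absurd (by simp) hc

lemma bc_zero_of_degree (f : (Fin n → Bool) → ℝ) (t : ℝ) {d : ℕ}
    (hd : ∀ S, fourierCoeff f S ≠ 0 → S.card ≤ d) (S : Finset (Fin n)) (hS : d < S.card) :
    bc f t S = 0 := by
  unfold bc
  apply Finset.sum_eq_zero
  intro T _
  split_ifs with h
  · by_cases h0 : fourierCoeff f T = 0
    · rw [h0, zero_mul]
    · have := hd T h0
      have := Finset.card_le_card h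
      omega
  · rfl

lemma Dd_abs (f : (Fin n → Bool) → ℝ) (hf : IsBoolean f) (i : Fin n) (x : Fin n → Bool) :
    |Dd f i x| = Dd f i x ^ 2 := by
  unfold Dd
  rcases hf (Function.update x i true) with h1 | h1 <;>
  rcases hf (Function.update x i false) with h2 | h2 <;> rw [h1, h2] <;> norm_num

/-- key biased influence bound -/
lemma infl_bound (f : (Fin n → Bool) → ℝ) (hf : IsBoolean f) {d : ℕ}
    (hd : ∀ S, fourierCoeff f S ≠ 0 → S.card ≤ d) {t : ℝ} (h1 : -1 ≤ t) (h2 : t ≤ 1) :
    |∑ i, bc f t {i}| * (1 - t ^ 2) ≤ d * (1 - bc f t ∅ ^ 2) := by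
  have hq : 0 ≤ 1 - t ^ 2 := by nlinarith
  have hp := parseval f t
  have hone : Ex t (fun x => f x ^ 2) = 1 := by
    have : (fun x => f x ^ 2) = fun _ : Fin n → Bool => (1:ℝ) := by
      funext x
      rcases hf x with h | h <;> rw [h] <;> norm_num
    rw [this, Ex_one]
  rw [hone] at hp
  have ha : |∑ i, bc f t {i}| ≤ ∑ i, Ex t (fun x => Dd f i x ^ 2) := by
    refine (Finset.abs_sum_le_sum_abs _ _).trans (Finset.sum_le_sum fun i _ => ?_)
    rw [← Ex_Dd]
    unfold Ex
    refine (Finset.abs_sum_le_sum_abs _ _).trans (Finset.sum_le_sum fun x _ => ?_)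
    rw [abs_mul, abs_of_nonneg (wt_nonneg h1 h2 x), Dd_abs f hf]
  have hb : (∑ i, Ex t (fun x => Dd f i x ^ 2)) * (1 - t ^ 2)
      = ∑ S : Finset (Fin n), (S.card : ℝ) * (bc f t S ^ 2 * (1 - t ^ 2) ^ S.card) := by
    simp_rw [Ex_Dd_sq, Finset.sum_filter]
    rw [Finset.sum_comm, Finset.sum_mul]
    apply Finset.sum_congr rfl
    intro S _
    rw [← Finset.sum_filter, Finset.sum_const]
    have : (Finset.univ.filter (fun i => i ∈ S)) = S := by ext; simp
    rw [this, nsmul_eq_mul, mul_assoc]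
    by_cases hc : S.card = 0
    · simp [hc]
    · rw [mul_assoc (bc f t S ^ 2), ← pow_succ, Nat.sub_add_cancel (by omega)]
  have hc : ∑ S : Finset (Fin n), (S.card : ℝ) * (bc f t S ^ 2 * (1 - t ^ 2) ^ S.card)
      ≤ d * (1 - bc f t ∅ ^ 2) := by
    have e1 : (1:ℝ) - bc f t ∅ ^ 2
        = ∑ S : Finset (Fin n), (if S = ∅ then 0 else bc f t S ^ 2 * (1 - t ^ 2) ^ S.card) := by
      have : ∑ S : Finset (Fin n), bc f t S ^ 2 * (1 - t ^ 2) ^ S.card
          = ∑ S : Finset (Fin n), ((if S = ∅ then bc f t ∅ ^ 2 else 0) +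
            (if S = ∅ then 0 else bc f t S ^ 2 * (1 - t ^ 2) ^ S.card)) := by
        apply Finset.sum_congr rfl
        intro S _
        split_ifs with h
        · subst h; simp
        · simp
      rw [this, Finset.sum_add_distrib] at hp
      simp only [Finset.sum_ite_eq', Finset.mem_univ, if_true] at hp
      linarith
    rw [e1, Finset.mul_sum]
    apply Finset.sum_le_sum
    intro S _
    split_ifs with h
    · subst h; simp
    · by_cases hdS : d < S.card
      · rw [bc_zero_of_degree f t hd S hdS]; simp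
      · push Not at hdS
        apply mul_le_mul_of_nonneg_right (by exact_mod_cast hdS)
        positivity
  calc |∑ i, bc f t {i}| * (1 - t ^ 2)
      ≤ (∑ i, Ex t (fun x => Dd f i x ^ 2)) * (1 - t ^ 2) := mul_le_mul_of_nonneg_right ha hq
    _ ≤ _ := by rw [hb]; exact hc

lemma bc_empty_sq_le (f : (Fin n → Bool) → ℝ) (hf : IsBoolean f) {t : ℝ} (h1 : -1 ≤ t)
    (h2 : t ≤ 1) : bc f t ∅ ^ 2 ≤ 1 := by
  have hq : 0 ≤ 1 - t ^ 2 := by nlinarith
  have hp := parseval f t
  have hone : Ex t (fun x => f x ^ 2) = 1 := by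
    have : (fun x => f x ^ 2) = fun _ : Fin n → Bool => (1:ℝ) := by
      funext x
      rcases hf x with h | h <;> rw [h] <;> norm_num
    rw [this, Ex_one]
  rw [hone] at hp
  rw [hp]
  have := Finset.single_le_sum (f := fun S : Finset (Fin n) => bc f t S ^ 2 * (1 - t ^ 2) ^ S.card)
    (fun S _ => by positivity) (Finset.mem_univ ∅)
  simpa using this

end Vale.Agent.P047
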