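import Mathlib

namespace Vale.Agent.P047

open Filter Topology

/-- the comparison factor -/
noncomputable def Rr (d : ℕ) : ℝ := ((1 + 1 / (d:ℝ)) / (1 - 1 / (d:ℝ))) ^ d

lemma bern2 (y : ℝ) (hy : 0 ≤ y) (n : ℕ) :
    1 + n * y + n * (n - 1) / 2 * y ^ 2 ≤ (1 + y) ^ n := by
  induction n with
  | zero => simp
  | succ n ih =>
    rw [pow_succ]
    have h1 : (1 + n * y + n * (n - 1) / 2 * y ^ 2) * (1 + y) ≤ (1 + y) ^ n * (1 + y) :=
      mul_le_mul_of_nonneg_right ih (by linarith)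
    refine le_trans ?_ h1
    have h2 : (0:ℝ) ≤ n * (n - 1) / 2 * y ^ 3 := by
      rcases Nat.eq_zero_or_pos n with h | h
      · subst h; simp
      · have : (1:ℝ) ≤ n := by exact_mod_cast h
        have h3 : (0:ℝ) ≤ n * (n - 1) := mul_nonneg (by linarith) (by linarith)
        positivity
    push_cast
    nlinarith

lemma Rr_eq (d : ℕ) (hd : 2 ≤ d) : Rr d = (((d:ℝ) + 1) / (d - 1)) ^ d := by
  have h : (2:ℝ) ≤ d := by exact_mod_cast hd
  unfold Rr
  congr 1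
  have h1 : (d:ℝ) ≠ 0 := by linarith
  have h2 : (d:ℝ) - 1 ≠ 0 := by linarith
  field_simp

lemma Rr_anti (d : ℕ) (hd : 2 ≤ d) : Rr (d + 1) ≤ Rr d := by
  have h : (2:ℝ) ≤ d := by exact_mod_cast hd
  rw [Rr_eq d hd, Rr_eq (d + 1) (by omega)]
  push_cast
  have e0 : (d:ℝ) + 1 - 1 = d := by ring
  have e00 : (d:ℝ) + 1 + 1 = d + 2 := by ring
  rw [e0, e00]
  set x : ℝ := (d : ℝ) with hx
  have hx1 : 0 < x - 1 := by linarith
  have hx2 : 0 < x + 2 := by linarith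
  have hx0 : 0 < x := by linarith
  set y : ℝ := 2 / ((x - 1) * (x + 2)) with hy
  have hy0 : 0 ≤ y := by positivity
  have h1 := bern2 y hy0 (d + 1)
  have h2 : (x + 1) / (x - 1) ≤ (1 + y) ^ (d + 1) := by
    refine le_trans ?_ h1
    push_cast
    have e : 1 + (x + 1) * y + (x + 1) * (x + 1 - 1) / 2 * y ^ 2 - (x + 1) / (x - 1)
        = 4 / ((x - 1) ^ 2 * (x + 2) ^ 2) := by
      rw [hy]
      field_simp
      ring
    have : 0 ≤ 4 / ((x - 1) ^ 2 * (x + 2) ^ 2) := by positivity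
    linarith
  have h3 : 1 + y = ((x + 1) / (x - 1)) / ((x + 2) / x) := by
    rw [hy]; field_simp; ring
  rw [h3, div_pow, le_div_iff₀ (by positivity)] at h2
  have h4 : ((x + 1) / (x - 1)) ^ (d + 1) = ((x + 1) / (x - 1)) * ((x + 1) / (x - 1)) ^ d := by
    rw [pow_succ]; ring
  rw [h4] at h2
  exact le_of_mul_le_mul_left h2 (by positivity)

lemma Rr_le_of_le (a d : ℕ) (ha : 2 ≤ a) (hd : a ≤ d) : Rr d ≤ Rr a := by
  induction d, hd using Nat.le_induction with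
  | base => exact le_rfl
  | succ d hd ih => exact (Rr_anti d (by omega)).trans ih

lemma Rr_two : Rr 2 = 9 := by unfold Rr; norm_num
lemma Rr_four : Rr 4 = 625 / 81 := by unfold Rr; norm_num

lemma Rr_ge_one (d : ℕ) (hd : 2 ≤ d) : 1 ≤ Rr d := by
  have h : (2:ℝ) ≤ d := by exact_mod_cast hd
  rw [Rr_eq d hd]
  apply one_le_pow₀
  rw [le_div_iff₀ (by linarith)]
  linarith

lemma Rr_tendsto : Tendsto Rr atTop (𝓝 (Real.exp 2)) := by
  have h1 : Tendsto (fun n : ℕ => (1 + (2:ℝ) / n) ^ n) atTop (𝓝 (Real.exp 2)) :=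
    Real.tendsto_one_add_div_pow_exp 2
  have h2 : Tendsto (fun n : ℕ => (1 + (2:ℝ) / n)) atTop (𝓝 (1 + 0)) :=
    (tendsto_const_div_atTop_nhds_zero_nat 2).const_add 1
  have h3 : Tendsto (fun n : ℕ => (1 + (2:ℝ) / n) ^ n * (1 + (2:ℝ) / n)) atTop
      (𝓝 (Real.exp 2)) := by
    have := h1.mul h2
    simpa using this
  have h4 : Tendsto (fun n : ℕ => Rr (n + 1)) atTop (𝓝 (Real.exp 2)) := by
    refine h3.congr' ?_
    filter_upwards [eventually_ge_atTop 1] with n hn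
    rw [Rr_eq (n + 1) (by omega), pow_succ]
    have hn' : (1:ℝ) ≤ n := by exact_mod_cast hn
    have : ((((n + 1 : ℕ) : ℝ) + 1) / (((n + 1 : ℕ) : ℝ) - 1)) = 1 + 2 / n := by
      push_cast
      have : (n:ℝ) ≠ 0 := by linarith
      rw [show (n:ℝ) + 1 - 1 = n by ring, show (n:ℝ) + 1 + 1 = n + 2 by ring]
      field_simp
    rw [this]
  exact (tendsto_add_atTop_iff_nat 1).mp h4

lemma ratio_mono {a b : ℝ} (ha : 0 ≤ a) (hab : a ≤ b) : (a - 1) / (a + 1) ≤ (b - 1) / (b + 1) := by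
  rw [div_le_div_iff₀ (by linarith) (by linarith)]
  nlinarith

lemma tanh_one : Real.tanh 1 = (Real.exp 2 - 1) / (Real.exp 2 + 1) := by
  rw [Real.tanh_eq_sinh_div_cosh, Real.sinh_eq, Real.cosh_eq]
  have h : Real.exp 2 = Real.exp 1 * Real.exp 1 := by rw [← Real.exp_add]; norm_num
  have h2 : Real.exp (-1) * Real.exp 1 = 1 := by rw [← Real.exp_add]; simp
  rw [h, div_eq_div_iff (by positivity) (by positivity)]
  linear_combination (-(Real.exp 1)) * h2

lemma ratio_tendsto :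
    Tendsto (fun d => (Rr d - 1) / (Rr d + 1)) atTop (𝓝 (Real.tanh 1)) := by
  rw [tanh_one]
  apply (Rr_tendsto.sub_const 1).div (Rr_tendsto.add_const 1)
  positivity

end Vale.Agent.P047
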