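import Vale.Agent.P047.Trig
import Vale.Agent.P047.Infl
import Vale.Agent.P047.Num

namespace Vale.Agent.P047

open Finset Filter Topology

variable {n : ℕ}

/-- the one-variable polynomial `∑ T, \hat f(T) X^{|T|}` -/
noncomputable def up (f : (Fin n → Bool) → ℝ) : Polynomial ℝ :=
  ∑ T : Finset (Fin n), Polynomial.C (fourierCoeff f T) * Polynomial.X ^ T.card

lemma up_eval (f : (Fin n → Bool) → ℝ) (t : ℝ) : (up f).eval t = bc f t ∅ := by
  unfold up bc
  rw [Polynomial.eval_finsetSum]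
  apply Finset.sum_congr rfl
  intro T _
  simp

lemma up_deriv (f : (Fin n → Bool) → ℝ) (t : ℝ) :
    (Polynomial.derivative (up f)).eval t = ∑ i, bc f t {i} := by
  unfold up bc
  rw [Finset.sum_comm, Polynomial.derivative_sum, Polynomial.eval_finsetSum]
  apply Finset.sum_congr rfl
  intro T _
  simp only [Finset.singleton_subset_iff, Finset.card_singleton]
  rw [← Finset.sum_filter, Finset.sum_const]
  have : (Finset.univ.filter (fun i => i ∈ T)) = T := by ext; simp
  rw [this, Polynomial.derivative_C_mul, Polynomial.derivative_X_pow, Polynomial.eval_mul,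
    Polynomial.eval_mul, Polynomial.eval_C, Polynomial.eval_C, Polynomial.eval_pow,
    Polynomial.eval_X, nsmul_eq_mul]
  ring

lemma up_natDegree (f : (Fin n → Bool) → ℝ) {d : ℕ}
    (hd : ∀ S, fourierCoeff f S ≠ 0 → S.card ≤ d) : (up f).natDegree ≤ d := by
  unfold up
  apply Polynomial.natDegree_sum_le_of_forall_le
  intro T _
  by_cases h : fourierCoeff f T = 0
  · rw [h]; simp
  · refine (Polynomial.natDegree_C_mul_le _ _).trans ?_
    exact (Polynomial.natDegree_X_pow_le _).trans (hd T h)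

lemma bc_zero_singleton (f : (Fin n → Bool) → ℝ) (i : Fin n) :
    bc f 0 {i} = fourierCoeff f {i} := by
  unfold bc
  rw [Finset.sum_eq_single {i}]
  · simp
  · intro T _ hT
    split_ifs with h
    · have h1 : 1 < T.card := by
        have hss : {i} ⊂ T := by
          refine Finset.ssubset_iff_subset_ne.mpr ⟨h, fun hc => hT hc.symm⟩
        have := Finset.card_lt_card hss
        simpa using this
      rw [Finset.card_singleton, zero_pow (by omega), mul_zero]
    · rfl
  · simp

lemma degree_le_iff (f : (Fin n → Bool) → ℝ) {d : ℕ} (h : degree f ≤ d) :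
    ∀ S, fourierCoeff f S ≠ 0 → S.card ≤ d := by
  intro S hS
  refine le_trans ?_ h
  unfold degree
  classical
  apply Finset.le_sup (f := Finset.card)
  simpa using hS

/-- main bound -/
lemma main_bound (d : ℕ) (hd : 2 ≤ d) (f : (Fin n → Bool) → ℝ) (hf : IsBoolean f)
    (hdeg : degree f ≤ d) :
    ∑ i, fourierCoeff f {i} ≤ ((Rr d - 1) / (Rr d + 1) + 1 / 6) * d := by
  have hD := degree_le_iff f hdeg
  have hdr : (2:ℝ) ≤ d := by exact_mod_cast hd
  have hd0 : (0:ℝ) < d := by linarith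
  have hbd : ∀ t : ℝ, -1 ≤ t → t ≤ 1 → |(up f).eval t| ≤ 1 := by
    intro t h1 h2
    rw [up_eval]
    have := bc_empty_sq_le f hf h1 h2
    exact abs_le_one_iff_mul_self_le_one.mpr (by nlinarith)
  have h1 := deriv_bound d (by omega) (up f) (up_natDegree f hD) hbd (1 / d) (by positivity)
  have hL : (Polynomial.derivative (up f)).eval 0 = ∑ i, fourierCoeff f {i} := by
    rw [up_deriv]
    exact Finset.sum_congr rfl (fun i _ => bc_zero_singleton f i)
  rw [hL] at h1
  set τ := Real.sin (1 / d) with hτ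
  have hinv : (1:ℝ) / d ≤ 1 / 2 := by
    rw [div_le_div_iff₀ hd0 (by norm_num)]; linarith
  have hinv0 : (0:ℝ) < 1 / d := by positivity
  have hτ0 : 0 < τ := Real.sin_pos_of_pos_of_lt_pi hinv0 (by linarith [Real.pi_gt_three])
  have hτ1 : τ ≤ 1 / d := (Real.sin_lt hinv0).le
  have h2 := ode_general d (fun t => (up f).eval t) (fun t => (Polynomial.derivative (up f)).eval t)
    (fun t => (up f).hasDerivAt t) (fun t ha hb => hbd t ha.le hb.le)
    (fun t ha hb => by
      rw [up_deriv, up_eval]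
      exact infl_bound f hf hD ha.le hb.le) τ hτ0 (by linarith)
  have h3 : ((1 + τ) / (1 - τ)) ^ d ≤ Rr d := by
    unfold Rr
    apply pow_le_pow_left₀
    · apply div_nonneg <;> linarith
    · rw [div_le_div_iff₀ (by linarith) (by linarith)]
      nlinarith
  have h3' : 0 ≤ ((1 + τ) / (1 - τ)) ^ d := by
    apply pow_nonneg; apply div_nonneg <;> linarith
  have h4 := ratio_mono h3' h3
  have h5 : (d:ℝ) ^ 3 * (1 / d) ^ 3 / 6 = 1 / 6 := by
    field_simp
  rw [h5] at h1
  have h6 : (∑ i, fourierCoeff f {i}) * (1 / d) ≤ (Rr d - 1) / (Rr d + 1) + 1 / 6 := by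
    linarith
  rw [mul_one_div, div_le_iff₀ hd0] at h6
  exact h6

lemma levelOneSums_nonempty (d : ℕ) : (levelOneSums d).Nonempty := by
  refine ⟨_, 1, fun _ => 1, le_rfl, fun _ => Or.inl rfl, ?_, rfl⟩
  unfold degree
  classical
  apply Finset.sup_le
  intro S hS
  simp only [Finset.mem_filter, Finset.mem_univ, true_and] at hS
  by_contra hc
  push Not at hc
  apply hS
  obtain ⟨i, hi⟩ : S.Nonempty := Finset.card_pos.mp (by omega)
  have hSe : S = {0} := by
    ext j
    have : j = 0 := Subsingleton.elim _ _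
    have hi0 : i = 0 := Subsingleton.elim _ _
    subst this
    subst hi0
    simp [hi]
  subst hSe
  unfold fourierCoeff
  have : ∑ x : Fin 1 → Bool, (1:ℝ) * ∏ i ∈ ({0} : Finset (Fin 1)), sg (x i) = 0 := by
    simp only [one_mul, Finset.prod_singleton]
    rw [← Equiv.sum_comp (Equiv.funUnique (Fin 1) Bool).symm]
    simp [sg]
  rw [this, zero_div]

lemma coeff_bound {d : ℕ} (c : ℝ) (h : (Rr d - 1) / (Rr d + 1) + 1 / 6 ≤ c) (hd : 2 ≤ d) :
    ∀ L ∈ levelOneSums d, L ≤ c * d := by
  rintro L ⟨n, f, _, hf, hdeg, rfl⟩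
  refine (main_bound d hd f hf hdeg).trans ?_
  apply mul_le_mul_of_nonneg_right h (Nat.cast_nonneg d)

lemma M_le {d : ℕ} (c : ℝ) (h : (Rr d - 1) / (Rr d + 1) + 1 / 6 ≤ c) (hd : 2 ≤ d) :
    M d ≤ c * d :=
  csSup_le (levelOneSums_nonempty d) (coeff_bound c h hd)

theorem final :
    (∀ d : ℕ, 2 ≤ d → BddAbove (levelOneSums d) ∧ M d ≤ 29 / 30 * d) ∧
    (∀ d : ℕ, 4 ≤ d → M d ≤ 15 / 16 * d) ∧
    (∀ ε : ℝ, 0 < ε → ∃ d₀ : ℕ, ∀ d : ℕ, d₀ ≤ d → M d ≤ (Real.tanh 1 + 1 / 6 + ε) * d) := by
  refine ⟨fun d hd => ⟨⟨29 / 30 * d, ?_⟩, ?_⟩, fun d hd => ?_, fun ε hε => ?_⟩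
  · intro L hL
    refine coeff_bound (29/30) ?_ hd L hL
    have h := ratio_mono (by linarith [Rr_ge_one d hd]) (Rr_le_of_le 2 d le_rfl hd)
    rw [Rr_two] at h
    linarith
  · apply M_le _ _ hd
    have h := ratio_mono (by linarith [Rr_ge_one d hd]) (Rr_le_of_le 2 d le_rfl hd)
    rw [Rr_two] at h
    linarith
  · apply M_le _ _ (by omega)
    have h := ratio_mono (by linarith [Rr_ge_one d (by omega)]) (Rr_le_of_le 4 d (by norm_num) hd)
    rw [Rr_four] at h
    norm_num at h
    linarith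
  · have h := ratio_tendsto.eventually (gt_mem_nhds (show Real.tanh 1 < Real.tanh 1 + ε by linarith))
    obtain ⟨N, hN⟩ := eventually_atTop.mp h
    refine ⟨max N 2, fun d hd => ?_⟩
    apply M_le _ _ (le_trans (le_max_right _ _) hd)
    have := hN d (le_trans (le_max_left _ _) hd)
    linarith

end Vale.Agent.P047
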