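import Mathlib

namespace Vale.Agent.P047

/-- nonnegativity from nonnegative derivative -/
lemma nn_of_deriv {F F' : ℝ → ℝ} (h : ∀ x, HasDerivAt F (F' x) x) (h0 : F 0 = 0)
    (hn : ∀ x, 0 ≤ x → 0 ≤ F' x) : ∀ x, 0 ≤ x → 0 ≤ F x := by
  intro x hx
  have hmono : MonotoneOn F (Set.Ici 0) := by
    apply monotoneOn_of_deriv_nonneg (convex_Ici 0)
    · exact fun y _ => (h y).continuousAt.continuousWithinAt
    · exact fun y _ => (h y).differentiableAt.differentiableWithinAt
    · intro y hy
      rw [interior_Ici] at hy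
      rw [(h y).deriv]
      exact hn y (le_of_lt hy)
  have := hmono (Set.mem_Ici.mpr le_rfl) (Set.mem_Ici.mpr hx) hx
  rw [h0] at this
  exact this

/-- comparison for the strict case -/
lemma ode_strict (d : ℕ) (p p' : ℝ → ℝ) (hp : ∀ t, HasDerivAt p (p' t) t)
    (h1 : ∀ t, -1 < t → t < 1 → |p t| < 1)
    (h2 : ∀ t, -1 < t → t < 1 → p' t * (1 - t ^ 2) ≤ d * (1 - p t ^ 2))
    (τ : ℝ) (h0 : 0 < τ) (hτ : τ < 1) :
    (p τ - p (-τ)) / 2 ≤ (((1 + τ) / (1 - τ)) ^ d - 1) / (((1 + τ) / (1 - τ)) ^ d + 1) := by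
  set F : ℝ → ℝ := fun t => Real.log (1 + p t) - Real.log (1 - p t)
    - d * (Real.log (1 + t) - Real.log (1 - t)) with hF
  have hder : ∀ t, -1 < t → t < 1 → HasDerivAt F
      (p' t / (1 + p t) - (- p' t) / (1 - p t) - d * (1 / (1 + t) - (-1) / (1 - t))) t := by
    intro t ha hb
    have hpt := h1 t ha hb
    rw [abs_lt] at hpt
    have e1 : HasDerivAt (fun t => 1 + p t) (p' t) t := (hp t).const_add 1
    have e2 : HasDerivAt (fun t => 1 - p t) (-p' t) t := (hp t).const_sub 1
    have e3 : HasDerivAt (fun t : ℝ => 1 + t) 1 t := (hasDerivAt_id t).const_add 1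
    have e4 : HasDerivAt (fun t : ℝ => 1 - t) (-1) t := (hasDerivAt_id t).const_sub 1
    have l1 := e1.log (by linarith [hpt.1])
    have l2 := e2.log (by linarith [hpt.2])
    have l3 := e3.log (by linarith)
    have l4 := e4.log (by linarith)
    exact (l1.sub l2).sub ((l3.sub l4).const_mul (d:ℝ))
  have hanti : AntitoneOn F (Set.Icc (-τ) τ) := by
    apply antitoneOn_of_deriv_nonpos (convex_Icc _ _)
    · intro t ht
      exact (hder t (by linarith [ht.1]) (by linarith [ht.2])).continuousAt.continuousWithinAt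
    · intro t ht
      rw [interior_Icc] at ht
      exact (hder t (by linarith [ht.1]) (by linarith [ht.2])).differentiableAt.differentiableWithinAt
    · intro t ht
      rw [interior_Icc] at ht
      have ha : -1 < t := by linarith [ht.1]
      have hb : t < 1 := by linarith [ht.2]
      rw [(hder t ha hb).deriv]
      have hpt := h1 t ha hb
      rw [abs_lt] at hpt
      have q1 : 0 < 1 + p t := by linarith [hpt.1]
      have q2 : 0 < 1 - p t := by linarith [hpt.2]
      have q3 : 0 < 1 + t := by linarith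
      have q4 : 0 < 1 - t := by linarith
      have e : p' t / (1 + p t) - (- p' t) / (1 - p t) - d * (1 / (1 + t) - (-1) / (1 - t))
          = 2 * (p' t * (1 - t ^ 2) - d * (1 - p t ^ 2)) /
            ((1 + p t) * (1 - p t) * ((1 + t) * (1 - t))) := by
        field_simp
        ring
      rw [e]
      apply div_nonpos_of_nonpos_of_nonneg
      · linarith [h2 t ha hb]
      · positivity
  have hcmp : F τ ≤ F (-τ) := hanti ⟨le_rfl, by linarith⟩ ⟨by linarith, le_rfl⟩ (by linarith)
  have ha := h1 τ (by linarith) hτ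
  have hb := h1 (-τ) (by linarith) (by linarith)
  rw [abs_lt] at ha hb
  set a := p τ
  set b := p (-τ)
  set ρ := (1 + τ) / (1 - τ) with hρ
  have q4 : 0 < 1 - τ := by linarith
  have hρ1 : 1 < ρ := by rw [hρ, lt_div_iff₀ q4]; linarith
  set R := ρ ^ d with hR
  have hR1 : 1 ≤ R := one_le_pow₀ hρ1.le
  have hlogR : Real.log R = d * (Real.log (1 + τ) - Real.log (1 - τ)) := by
    rw [hR, Real.log_pow, hρ, Real.log_div (by linarith) (by linarith)]
  have hlog : Real.log ((1 + a) * (1 - b)) ≤ Real.log (R ^ 2 * ((1 - a) * (1 + b))) := by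
    rw [Real.log_mul (by linarith) (by linarith), Real.log_mul (by positivity)
      (by apply mul_ne_zero <;> linarith), Real.log_mul (by linarith) (by linarith),
      Real.log_pow, hlogR]
    simp only [hF] at hcmp
    rw [sub_neg_eq_add, ← sub_eq_add_neg] at hcmp
    push_cast
    linarith
  have hpos : 0 < (1 + a) * (1 - b) := by
    apply mul_pos <;> linarith
  have hmain := (Real.log_le_log_iff hpos (by
    apply mul_pos (by positivity)
    apply mul_pos <;> linarith)).mp hlog
  set m := (a - b) / 2 with hm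
  set s := (a + b) / 2 with hs
  have e1 : (1 + a) * (1 - b) = (1 + m) ^ 2 - s ^ 2 := by rw [hm, hs]; ring
  have e2 : (1 - a) * (1 + b) = (1 - m) ^ 2 - s ^ 2 := by rw [hm, hs]; ring
  rw [e1, e2] at hmain
  have h3 : (1 + m) ^ 2 ≤ (R * (1 - m)) ^ 2 := by
    have : 0 ≤ (R ^ 2 - 1) * s ^ 2 := by
      apply mul_nonneg _ (sq_nonneg s)
      nlinarith
    nlinarith
  have hm1 : m < 1 := by rw [hm]; linarith [ha.1, ha.2, hb.1, hb.2]
  have h4 : 1 + m ≤ R * (1 - m) := by
    apply le_of_sq_le_sq h3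
    apply mul_nonneg <;> linarith
  rw [le_div_iff₀ (by linarith)]
  nlinarith

/-- comparison, general case -/
lemma ode_general (d : ℕ) (p p' : ℝ → ℝ) (hp : ∀ t, HasDerivAt p (p' t) t)
    (h1 : ∀ t, -1 < t → t < 1 → |p t| ≤ 1)
    (h2 : ∀ t, -1 < t → t < 1 → |p' t| * (1 - t ^ 2) ≤ d * (1 - p t ^ 2))
    (τ : ℝ) (h0 : 0 < τ) (hτ : τ < 1) :
    (p τ - p (-τ)) / 2 ≤ (((1 + τ) / (1 - τ)) ^ d - 1) / (((1 + τ) / (1 - τ)) ^ d + 1) := by
  set m := (p τ - p (-τ)) / 2 with hm
  set ρ := (((1 + τ) / (1 - τ)) ^ d - 1) / (((1 + τ) / (1 - τ)) ^ d + 1) with hρ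
  have hρ0 : 0 ≤ ρ := by
    have q4 : 0 < 1 - τ := by linarith
    have : 1 ≤ ((1 + τ) / (1 - τ)) ^ d := by
      apply one_le_pow₀
      rw [le_div_iff₀ q4]; linarith
    apply div_nonneg <;> linarith
  have key : ∀ e : ℝ, 0 < e → e < 1 → (1 - e) * m ≤ ρ := by
    intro e he0 he1
    have := ode_strict d (fun t => (1 - e) * p t) (fun t => (1 - e) * p' t)
      (fun t => (hp t).const_mul (1 - e)) (by
        intro t ha hb
        rw [abs_mul, abs_of_pos (by linarith : (0:ℝ) < 1 - e)]
        nlinarith [h1 t ha hb, abs_nonneg (p t)]) (by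
        intro t ha hb
        have h3 := h2 t ha hb
        have h4 := h1 t ha hb
        have h5 : p t ^ 2 ≤ 1 := by
          rw [← sq_abs]; nlinarith [abs_nonneg (p t)]
        have hq : 0 < 1 - t ^ 2 := by nlinarith
        have h6 : p' t * (1 - t ^ 2) ≤ d * (1 - p t ^ 2) :=
          (mul_le_mul_of_nonneg_right (le_abs_self _) hq.le).trans h3
        have hd0 : (0:ℝ) ≤ d := Nat.cast_nonneg d
        calc (1 - e) * p' t * (1 - t ^ 2) = (1 - e) * (p' t * (1 - t ^ 2)) := by ring
          _ ≤ (1 - e) * (d * (1 - p t ^ 2)) := by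
              apply mul_le_mul_of_nonneg_left h6; linarith
          _ = d * ((1 - e) * (1 - p t ^ 2)) := by ring
          _ ≤ d * (1 - ((1 - e) * p t) ^ 2) := by
              apply mul_le_mul_of_nonneg_left _ hd0
              nlinarith [mul_nonneg (mul_nonneg he0.le (by linarith : (0:ℝ) ≤ 1 - e)) (sq_nonneg (p t))])
      τ h0 hτ
    have e2 : ((1 - e) * p τ - (1 - e) * p (-τ)) / 2 = (1 - e) * m := by rw [hm]; ring
    rw [e2] at this
    exact this
  by_contra hc
  push Not at hc
  have hm0 : 0 < m := lt_of_le_of_lt hρ0 hc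
  have := key ((m - ρ) / (2 * m)) (by apply div_pos <;> linarith) (by
    rw [div_lt_one (by linarith)]; linarith)
  have e3 : (1 - (m - ρ) / (2 * m)) * m = (m + ρ) / 2 := by
    field_simp
    ring
  rw [e3] at this
  linarith

end Vale.Agent.P047
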