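import Vale.Agent.P047.Bern
import Vale.Agent.P047.Ode

namespace Vale.Agent.P047

open Finset Complex

/-- trigonometric polynomial attached to `P` -/
noncomputable def G (d : ℕ) (P : Polynomial ℂ) (θ : ℝ) : ℂ :=
  Complex.exp (-(d * (θ * I))) * P.eval (Complex.exp (θ * I))

lemma G_deriv (d : ℕ) (P : Polynomial ℂ) (θ : ℝ) :
    HasDerivAt (G d P) (G d (T d P) θ) θ := by
  have h0 : HasDerivAt (fun θ : ℝ => (θ : ℂ) * I) I θ := by
    have := (Complex.ofRealCLM.hasDerivAt (x := θ)).mul_const I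
    simpa using this
  have h1 : HasDerivAt (fun θ : ℝ => Complex.exp (-(d * ((θ:ℂ) * I))))
      (Complex.exp (-(d * (θ * I))) * (-(d * I))) θ := by
    exact ((h0.const_mul (d:ℂ)).neg).cexp
  have h2 : HasDerivAt (fun θ : ℝ => Complex.exp ((θ:ℂ) * I)) (Complex.exp (θ * I) * I) θ :=
    h0.cexp
  have h3 : HasDerivAt (fun θ : ℝ => P.eval (Complex.exp ((θ:ℂ) * I)))
      ((Polynomial.derivative P).eval (Complex.exp (θ * I)) * (Complex.exp (θ * I) * I)) θ := by
    have := HasDerivAt.comp θ (P.hasDerivAt (Complex.exp (θ * I))) h2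
    exact this
  have h4 := h1.mul h3
  have e : G d (T d P) θ = Complex.exp (-(d * (θ * I))) * (-(d * I)) *
      P.eval (Complex.exp (θ * I)) + Complex.exp (-(d * (θ * I))) *
      ((Polynomial.derivative P).eval (Complex.exp (θ * I)) * (Complex.exp (θ * I) * I)) := by
    simp [G, T]
    ring
  rw [e]
  exact h4

lemma G_norm (d : ℕ) (P : Polynomial ℂ) (θ : ℝ) :
    ‖G d P θ‖ = ‖P.eval (Complex.exp (θ * I))‖ := by
  unfold G
  rw [norm_mul]
  have : ‖Complex.exp (-(d * (θ * I)))‖ = 1 := by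
    have e : -((d:ℂ) * (θ * I)) = ((-(d * θ) : ℝ) : ℂ) * I := by push_cast; ring
    rw [e, Complex.norm_exp_ofReal_mul_I]
  rw [this, one_mul]

/-- Third-order expansion bound for bounded trigonometric polynomials. -/
lemma third_order (d : ℕ) (hd : 1 ≤ d) (P : Polynomial ℂ) (hP : P.natDegree ≤ 2 * d)
    (hB : ∀ z : ℂ, ‖z‖ = 1 → ‖P.eval z‖ ≤ 1) (θ : ℝ) (hθ : 0 ≤ θ) :
    (G d (T d P) 0).re * θ ≤ ((G d P θ).re - (G d P (-θ)).re) / 2 + d ^ 3 * θ ^ 3 / 6 := by
  have b1 := bernstein d hd P hP 1 hB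
  have b2 := bernstein d hd (T d P) (T_natDegree d P hP) _ b1
  have b3 := bernstein d hd (T d (T d P)) (T_natDegree d _ (T_natDegree d P hP)) _ b2
  set P1 := T d P
  set P2 := T d P1
  set P3 := T d P2
  have hre : ∀ (Q : Polynomial ℂ) (x : ℝ),
      HasDerivAt (fun x => (G d Q x).re) ((G d (T d Q) x).re) x := by
    intro Q x
    exact (Complex.reCLM.hasFDerivAt.comp_hasDerivAt x (G_deriv d Q x))
  have hreneg : ∀ (Q : Polynomial ℂ) (x : ℝ),
      HasDerivAt (fun x => (G d Q (-x)).re) (-(G d (T d Q) (-x)).re) x := by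
    intro Q x
    have := (hre Q (-x)).comp x (hasDerivAt_neg x)
    rw [mul_neg, mul_one] at this
    exact this
  have hb : ∀ x : ℝ, |(G d P3 x).re| ≤ (d:ℝ) ^ 3 := by
    intro x
    refine (Complex.abs_re_le_norm _).trans ?_
    rw [G_norm]
    refine (b3 _ (Complex.norm_exp_ofReal_mul_I x)).trans ?_
    apply le_of_eq; ring
  -- K2
  have k2 : ∀ x, 0 ≤ x → 0 ≤ ((G d P2 x).re - (G d P2 (-x)).re) / 2 + d ^ 3 * x := by
    apply nn_of_deriv (F' := fun x => ((G d P3 x).re - (-(G d P3 (-x)).re)) / 2 + d ^ 3 * 1)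
    · intro x
      exact (((hre P2 x).sub (hreneg P2 x)).div_const 2).add ((hasDerivAt_id x).const_mul _)
    · simp
    · intro x _
      have h1 := abs_le.mp (hb x)
      have h2 := abs_le.mp (hb (-x))
      linarith [h1.1, h2.1]
  have k1 : ∀ x, 0 ≤ x → 0 ≤ ((G d P1 x).re + (G d P1 (-x)).re) / 2 - (G d P1 0).re
      + d ^ 3 * (x ^ 2 / 2) := by
    apply nn_of_deriv (F' := fun x => ((G d P2 x).re + (-(G d P2 (-x)).re)) / 2
      + d ^ 3 * (2 * x / 2))
    · intro x
      have h3 : HasDerivAt (fun x : ℝ => x ^ 2 / 2) (2 * x / 2) x := by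
        have := (hasDerivAt_pow 2 x).div_const 2
        simpa using this
      exact ((((hre P1 x).add (hreneg P1 x)).div_const 2).sub_const _).add (h3.const_mul _)
    · simp
    · intro x hx
      have := k2 x hx
      linarith
  have k0 : ∀ x, 0 ≤ x → 0 ≤ ((G d P x).re - (G d P (-x)).re) / 2 - (G d P1 0).re * x
      + d ^ 3 * (x ^ 3 / 6) := by
    apply nn_of_deriv (F' := fun x => ((G d P1 x).re - (-(G d P1 (-x)).re)) / 2
      - (G d P1 0).re * 1 + d ^ 3 * (3 * x ^ 2 / 6))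
    · intro x
      have h3 : HasDerivAt (fun x : ℝ => x ^ 3 / 6) (3 * x ^ 2 / 6) x := by
        have := (hasDerivAt_pow 3 x).div_const 6
        simpa using this
      exact ((((hre P x).sub (hreneg P x)).div_const 2).sub
        ((hasDerivAt_id x).const_mul _)).add (h3.const_mul _)
    · simp
    · intro x hx
      have := k1 x hx
      linarith
  have := k0 θ hθ
  linarith

/-- complexification of `p(sin θ)` -/
noncomputable def cP (d : ℕ) (p : Polynomial ℝ) : Polynomial ℂ :=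
  ∑ k ∈ range (d + 1), Polynomial.C ((p.coeff k : ℂ) * (1 / (2 * I)) ^ k) *
    ((Polynomial.X ^ 2 - 1) ^ k * Polynomial.X ^ (d - k))

lemma cP_natDegree (d : ℕ) (p : Polynomial ℝ) : (cP d p).natDegree ≤ 2 * d := by
  unfold cP
  apply Polynomial.natDegree_sum_le_of_forall_le
  intro k hk
  have hk' : k ≤ d := by
    have := Finset.mem_range.mp hk; omega
  refine (Polynomial.natDegree_C_mul_le _ _).trans ?_
  refine (Polynomial.natDegree_mul_le).trans ?_
  have h1 : ((Polynomial.X ^ 2 - 1 : Polynomial ℂ) ^ k).natDegree ≤ k * 2 := by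
    refine (Polynomial.natDegree_pow_le).trans ?_
    apply Nat.mul_le_mul_left
    refine (Polynomial.natDegree_sub_le _ _).trans ?_
    simp
  have h2 : (Polynomial.X ^ (d - k) : Polynomial ℂ).natDegree ≤ d - k :=
    Polynomial.natDegree_X_pow_le _
  omega

lemma cP_eval (d : ℕ) (p : Polynomial ℝ) (hp : p.natDegree ≤ d) (θ : ℝ) :
    (cP d p).eval (Complex.exp (θ * I))
      = Complex.exp (θ * I) ^ d * ((p.eval (Real.sin θ) : ℝ) : ℂ) := by
  set z := Complex.exp (θ * I) with hz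
  have hz0 : z ≠ 0 := Complex.exp_ne_zero _
  have hsin : (z ^ 2 - 1) / (2 * I) = z * (Real.sin θ : ℂ) := by
    have hinv : Complex.exp (-(θ * I)) * z = 1 := by
      rw [hz, ← Complex.exp_add]; simp
    rw [Complex.ofReal_sin, Complex.sin]
    have : -(θ:ℂ) * I = -(θ * I) := by ring
    rw [this, ← hz]
    have hI : (2 * I:ℂ) ≠ 0 := mul_ne_zero two_ne_zero Complex.I_ne_zero
    have hI2 : (I:ℂ) ^ 2 = -1 := Complex.I_sq
    rw [div_eq_iff hI]
    linear_combination hinv - (z * Complex.exp (-(θ * I)) - z ^ 2) * hI2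
  unfold cP
  rw [Polynomial.eval_finsetSum, Polynomial.eval_eq_sum_range' (show p.natDegree < d + 1 by omega)]
  push_cast
  rw [Finset.mul_sum]
  apply Finset.sum_congr rfl
  intro k hk
  have hk' : k ≤ d := by
    have := Finset.mem_range.mp hk; omega
  simp only [Polynomial.eval_mul, Polynomial.eval_C, Polynomial.eval_pow, Polynomial.eval_sub,
    Polynomial.eval_X, Polynomial.eval_one]
  have e1 : ((p.coeff k : ℂ) * (1 / (2 * I)) ^ k) * ((z ^ 2 - 1) ^ k * z ^ (d - k))
      = (p.coeff k : ℂ) * ((z ^ 2 - 1) / (2 * I)) ^ k * z ^ (d - k) := by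
    rw [div_pow, div_pow]
    ring
  rw [e1, hsin, mul_pow]
  have e2 : z ^ d = z ^ k * z ^ (d - k) := by
    rw [← pow_add]; congr 1; omega
  rw [e2, Complex.ofReal_sin]
  ring

lemma G_cP (d : ℕ) (p : Polynomial ℝ) (hp : p.natDegree ≤ d) (θ : ℝ) :
    G d (cP d p) θ = ((p.eval (Real.sin θ) : ℝ) : ℂ) := by
  unfold G
  rw [cP_eval d p hp, ← mul_assoc, ← Complex.exp_nat_mul, ← Complex.exp_add]
  simp

/-- The bound on `p'(0)` for real polynomials bounded by one. -/
lemma deriv_bound (d : ℕ) (hd : 1 ≤ d) (p : Polynomial ℝ) (hp : p.natDegree ≤ d)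
    (hB : ∀ t : ℝ, -1 ≤ t → t ≤ 1 → |p.eval t| ≤ 1) (θ : ℝ) (hθ : 0 ≤ θ) :
    (Polynomial.derivative p).eval 0 * θ
      ≤ (p.eval (Real.sin θ) - p.eval (-Real.sin θ)) / 2 + d ^ 3 * θ ^ 3 / 6 := by
  have hB' : ∀ z : ℂ, ‖z‖ = 1 → ‖(cP d p).eval z‖ ≤ 1 := by
    intro z hz
    have : z = Complex.exp (Complex.arg z * I) := by
      have := Complex.norm_mul_exp_arg_mul_I z
      rw [hz] at this
      simpa using this.symm
    rw [this, cP_eval d p hp, norm_mul, norm_pow, Complex.norm_exp_ofReal_mul_I, one_pow, one_mul,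
      Complex.norm_real, Real.norm_eq_abs]
    exact hB _ (Real.neg_one_le_sin _) (Real.sin_le_one _)
  have h := third_order d hd (cP d p) (cP_natDegree d p) hB' θ hθ
  have h0 : (G d (T d (cP d p)) 0).re = (Polynomial.derivative p).eval 0 := by
    have h1 : HasDerivAt (fun x => (G d (cP d p) x).re) ((G d (T d (cP d p)) 0).re) 0 :=
      (Complex.reCLM.hasFDerivAt.comp_hasDerivAt (0:ℝ) (G_deriv d (cP d p) 0))
    have h2 : HasDerivAt (fun x => p.eval (Real.sin x))
        ((Polynomial.derivative p).eval (Real.sin 0) * Real.cos 0) 0 :=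
      (p.hasDerivAt (Real.sin 0)).comp 0 (Real.hasDerivAt_sin 0)
    have h3 : (fun x : ℝ => (G d (cP d p) x).re) = fun x => p.eval (Real.sin x) := by
      funext x
      rw [G_cP d p hp, Complex.ofReal_re]
    rw [h3] at h1
    have := h1.unique h2
    simpa using this
  rw [h0, G_cP d p hp, G_cP d p hp, Complex.ofReal_re, Complex.ofReal_re, Real.sin_neg] at h
  exact h

end Vale.Agent.P047
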